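import Vale.Agent.P198.Q.Defs

/-!
# P198: linear local connectivity (LLC1, LLC2) from the `QM` axioms and (T1)
-/

open Metric Set
open P198Q

namespace P198L

variable {G Z : Type*} [Group G] [MetricSpace Z] [MulAction G Z]

/-- the topological input (T1) -/
def T1 (Z : Type*) [MetricSpace Z] : Prop :=
  ∀ ε : ℝ, 0 < ε → ∃ δ : ℝ, 0 < δ ∧ ∀ x y : Z, dist x y < δ →
      ∃ K : Set Z, IsCompact K ∧ IsConnected K ∧ x ∈ K ∧ y ∈ K ∧ diam K < ε

theorem dist_smul_le (q : QM G Z) (g : G) (x y : Z) :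
    dist (g • x) (g • y) ≤ q.C / q.s g * dist x y := by
  have hs := q.s_pos g
  have h := q.q1_upper g x y
  have hx : q.s g ≤ max (q.s g) (dist x (q.ζ g)) := le_max_left _ _
  have hy : q.s g ≤ max (q.s g) (dist y (q.ζ g)) := le_max_left _ _
  have h2 : dist (g • x) (g • y) * (q.s g * q.s g) ≤ q.C * (q.s g * dist x y) := by
    refine le_trans ?_ h
    gcongr
  rw [div_mul_eq_mul_div, le_div_iff₀ hs]
  have h3 : (dist (g • x) (g • y) * q.s g) * q.s g ≤ (q.C * dist x y) * q.s g := by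
    calc _ = dist (g • x) (g • y) * (q.s g * q.s g) := by ring
      _ ≤ _ := h2
      _ = _ := by ring
  exact le_of_mul_le_mul_right h3 hs

theorem continuous_gsmul (q : QM G Z) (g : G) : Continuous (fun z : Z => g • z) := by
  have hs := q.s_pos g
  have hC := q.one_le_C
  exact (LipschitzWith.of_dist_le_mul (K := ⟨q.C / q.s g, by positivity⟩)
      (fun x y => dist_smul_le q g x y)).continuous

/-- translate a continuum -/
theorem continuum_smul (q : QM G Z) (g : G) {K : Set Z} (hK : IsCompact K) (hc : IsConnected K) :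
    IsCompact ((fun z : Z => g • z) '' K) ∧ IsConnected ((fun z : Z => g • z) '' K) :=
  ⟨hK.image (continuous_gsmul q g), hc.image _ (continuous_gsmul q g).continuousOn⟩

theorem llc1 (q : QM G Z) [CompactSpace Z] [ConnectedSpace Z] (hT1 : T1 Z) :
    ∃ L : ℝ, 1 ≤ L ∧ ∀ (x y z : Z) (r : ℝ), 0 < r → dist y x ≤ r → dist z x ≤ r →
      ∃ K : Set Z, IsCompact K ∧ IsConnected K ∧ y ∈ K ∧ z ∈ K ∧ K ⊆ closedBall x (L * r) := by
  have hC1 := q.one_le_C
  set C := q.C with hCdef
  have hC0 : 0 < C := by linarith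
  set ε : ℝ := 1 / (4 * C ^ 3) with hε
  have hε0 : 0 < ε := by positivity
  obtain ⟨δ, hδ, hT⟩ := hT1 ε hε0
  set A : ℝ := 1 + 4 * C ^ 2 / δ with hA
  have hA1 : 1 ≤ A := by rw [hA]; have : 0 ≤ 4 * C ^ 2 / δ := by positivity
                         linarith
  have hA0 : 0 < A := by linarith
  set Δ : ℝ := diam (univ : Set Z) with hΔ
  have hΔ0 : 0 ≤ Δ := diam_nonneg
  refine ⟨1 + 2 * C ^ 5 * A + A * Δ, ?_, ?_⟩
  · have : 0 ≤ 2 * C ^ 5 * A := by positivity
    have : 0 ≤ A * Δ := by positivity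
    linarith
  intro x y z r hr hy hz
  by_cases hAr : A * r ≤ 1
  · obtain ⟨g, hg1, hg2, hg3⟩ := q.q4 x (A * r) (by positivity) hAr
    rw [← hCdef] at hg1 hg2 hg3
    set s := q.s g with hs
    have hs0 : 0 < s := q.s_pos g
    have hrA : r ≤ A * r := by nlinarith
    have hm : ∀ u : Z, dist u x ≤ r → max s (dist u (q.ζ g)) ≤ 2 * C ^ 2 * s := by
      intro u hu
      refine max_le (by nlinarith) ?_
      have t := dist_triangle u x (q.ζ g)
      have : r ≤ C * s := hrA.trans hg2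
      have : C * (A * r) ≤ C * (C * s) := by gcongr
      have : C * s ≤ C ^ 2 * s := by
        have : 1 * (C * s) ≤ C * (C * s) := by gcongr
        linarith
      nlinarith
    -- images are close
    have hd : dist (g • y) (g • z) < δ := by
      have h1 := dist_smul_le q g y z
      rw [← hCdef, ← hs] at h1
      have h2 : dist y z ≤ 2 * r := by
        have := dist_triangle_right y z x
        linarith
      have h3 : C / s * dist y z ≤ C / s * (2 * r) := by gcongr
      have h4 : C / s * (2 * r) ≤ 2 * C ^ 2 / A := by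
        rw [div_mul_eq_mul_div, div_le_div_iff₀ hs0 hA0]
        nlinarith
      have h5 : 2 * C ^ 2 / A < δ := by
        rw [div_lt_iff₀ hA0, hA, mul_add, mul_div_cancel₀ _ hδ.ne']
        nlinarith [sq_nonneg C]
      linarith
    obtain ⟨K', hK'c, hK'conn, hyK', hzK', hdiam⟩ := hT _ _ hd
    obtain ⟨hKc, hKconn⟩ := continuum_smul q g⁻¹ hK'c hK'conn
    refine ⟨_, hKc, hKconn, ⟨g • y, hyK', inv_smul_smul g y⟩, ⟨g • z, hzK', inv_smul_smul g z⟩, ?_⟩
    rintro _ ⟨w, hw, rfl⟩
    have hwy : dist w (g • y) < ε := (dist_le_diam_of_mem hK'c.isBounded hw hyK').trans_lt hdiam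
    -- lower bound of m' at g y
    have h1 := q.q2_lower g y
    rw [← hCdef, ← hs] at h1
    set m' : Z → ℝ := fun u => max s (dist u (q.ζ g⁻¹)) with hm'
    have hm'y : 1 / (2 * C ^ 3) ≤ m' (g • y) := by
      have h2 : s ≤ C * (m' (g • y) * (2 * C ^ 2 * s)) := by
        refine h1.trans ?_
        have : 0 ≤ m' (g • y) := le_max_of_le_left hs0.le
        have := hm y hy
        simp only [hm'] at *
        gcongr
      rw [div_le_iff₀ (by positivity)]
      have h3 : 1 * s ≤ (m' (g • y) * (2 * C ^ 3)) * s := by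
        calc 1 * s = s := one_mul s
          _ ≤ _ := h2
          _ = _ := by ring
      exact le_of_mul_le_mul_right h3 hs0
    have hm'w : 1 / (4 * C ^ 3) ≤ m' w := by
      have h2 : m' (g • y) ≤ m' w + dist w (g • y) := by
        simp only [hm']
        refine max_le ?_ ?_
        · have : s ≤ max s (dist w (q.ζ g⁻¹)) := le_max_left _ _
          have : 0 ≤ dist w (g • y) := dist_nonneg
          linarith
        · have : dist w (q.ζ g⁻¹) ≤ max s (dist w (q.ζ g⁻¹)) := le_max_right _ _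
          have := dist_triangle_left (g • y) (q.ζ g⁻¹) w
          linarith
      have h3 : 1 / (2 * C ^ 3) = 1 / (4 * C ^ 3) + 1 / (4 * C ^ 3) := by field_simp; norm_num
      rw [← hε] at h3 ⊢
      linarith
    have h4 := q.q1_upper g⁻¹ w (g • y)
    rw [q.s_inv, ← hCdef, ← hs, inv_smul_smul] at h4
    change dist (g⁻¹ • w) y * (m' w * m' (g • y)) ≤ _ at h4
    have h5 : dist (g⁻¹ • w) y * (1 / (4 * C ^ 3) * (1 / (2 * C ^ 3))) ≤ C * (s * ε) := by
      calc _ ≤ dist (g⁻¹ • w) y * (m' w * m' (g • y)) := by gcongr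
        _ ≤ _ := h4
        _ ≤ _ := by gcongr
    have h6 : dist (g⁻¹ • w) y ≤ 2 * C ^ 5 * (A * r) := by
      have h7 : dist (g⁻¹ • w) y ≤ 2 * C ^ 4 * s := by
        have e1 : dist (g⁻¹ • w) y * (1 / (4 * C ^ 3) * (1 / (2 * C ^ 3))) =
          dist (g⁻¹ • w) y / (8 * C ^ 6) := by field_simp; ring
        have e2 : C * (s * ε) = (2 * C ^ 4 * s) / (8 * C ^ 6) := by
          rw [hε]; field_simp; norm_num
        rw [e1, e2] at h5
        exact (div_le_div_iff_of_pos_right (by positivity)).1 h5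
      calc _ ≤ _ := h7
        _ ≤ 2 * C ^ 4 * (C * (A * r)) := by gcongr
        _ = _ := by ring
    rw [mem_closedBall]
    have t := dist_triangle (g⁻¹ • w) y x
    have : 0 ≤ A * Δ * r := by positivity
    simp only
    nlinarith
  · push Not at hAr
    refine ⟨univ, isCompact_univ, isConnected_univ, mem_univ _, mem_univ _, ?_⟩
    intro w _
    rw [mem_closedBall]
    have h1 : dist w x ≤ Δ := dist_le_diam_of_mem isCompact_univ.isBounded (mem_univ _) (mem_univ _)
    have h2 : Δ * 1 ≤ Δ * (A * r) := by gcongr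
    have : 0 ≤ (1 + 2 * C ^ 5 * A) * r := by positivity
    nlinarith

theorem llc2 (q : QM G Z) [CompactSpace Z] (hT1 : T1 Z) :
    ∃ L : ℝ, 1 ≤ L ∧ ∀ (x y z : Z) (r : ℝ), 0 < r → r ≤ dist y x → r ≤ dist z x →
      ∃ K : Set Z, IsCompact K ∧ IsConnected K ∧ y ∈ K ∧ z ∈ K ∧
        Disjoint K (closedBall x (r / L)) := by
  have hC1 := q.one_le_C
  set C := q.C with hCdef
  have hC0 : 0 < C := by linarith
  set ε : ℝ := 1 / (2 * C ^ 2 * (C + 1)) with hε
  have hε0 : 0 < ε := by positivity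
  obtain ⟨δ, hδ, hT⟩ := hT1 ε hε0
  set Δ : ℝ := diam (univ : Set Z) with hΔ
  have hΔ0 : 0 ≤ Δ := diam_nonneg
  set a : ℝ := min (min (1 / (4 * C ^ 4 * (C + 1))) (δ / (8 * C ^ 2))) (min (1 / (2 * C)) (1 / (1 + Δ)))
    with ha
  have ha0 : 0 < a := by rw [ha]; positivity
  have ha1 : a ≤ 1 / (4 * C ^ 4 * (C + 1)) := (min_le_left _ _).trans (min_le_left _ _)
  have ha2 : a ≤ δ / (8 * C ^ 2) := (min_le_left _ _).trans (min_le_right _ _)
  have ha3 : a ≤ 1 / (2 * C) := (min_le_right _ _).trans (min_le_left _ _)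
  have ha4 : a ≤ 1 / (1 + Δ) := (min_le_right _ _).trans (min_le_right _ _)
  have ha5 : a ≤ 1 := ha4.trans (by rw [div_le_one (by positivity)]; linarith)
  refine ⟨2 / a, by rw [le_div_iff₀ ha0]; linarith, ?_⟩
  intro x y z r hr hy hz
  have hrΔ : r ≤ Δ := hy.trans
    (dist_le_diam_of_mem isCompact_univ.isBounded (mem_univ _) (mem_univ _))
  have har : a * r ≤ 1 := by
    have h1 : a * (1 + Δ) ≤ 1 := by rwa [le_div_iff₀ (by positivity)] at ha4
    nlinarith
  obtain ⟨g, hg1, hg2, hg3⟩ := q.q4 x (a * r) (by positivity) har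
  rw [← hCdef] at hg1 hg2 hg3
  set s := q.s g with hs
  have hs0 : 0 < s := q.s_pos g
  set m' : Z → ℝ := fun u => max s (dist u (q.ζ g⁻¹)) with hm'
  have haC : C * a ≤ 1 / 2 := by
    rw [le_div_iff₀ (by positivity)] at ha3
    linarith
  have hm : ∀ u : Z, r ≤ dist u x → m' (g • u) ≤ 2 * C ^ 2 * a := by
    intro u hu
    have h1 := q.q2_upper g u
    rw [← hCdef, ← hs] at h1
    have h2 : r / 2 ≤ max s (dist u (q.ζ g)) := by
      refine le_trans ?_ (le_max_right _ _)
      have := dist_triangle_right u x (q.ζ g)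
      nlinarith
    have h0 : 0 ≤ m' (g • u) := le_max_of_le_left hs0.le
    have h3 : m' (g • u) * (r / 2) ≤ C * (C * (a * r)) := by
      calc _ ≤ m' (g • u) * max s (dist u (q.ζ g)) := by gcongr
        _ ≤ C * s := h1
        _ ≤ _ := by gcongr
    have h4 : m' (g • u) * r ≤ (2 * C ^ 2 * a) * r := by nlinarith
    exact le_of_mul_le_mul_right h4 hr
  have hy' := hm y hy
  have hz' := hm z hz
  have hd : dist (g • y) (g • z) < δ := by
    have h1 : dist (g • y) (q.ζ g⁻¹) ≤ m' (g • y) := le_max_right _ _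
    have h2 : dist (g • z) (q.ζ g⁻¹) ≤ m' (g • z) := le_max_right _ _
    have h3 := dist_triangle_right (g • y) (g • z) (q.ζ g⁻¹)
    rw [le_div_iff₀ (by positivity)] at ha2
    nlinarith
  obtain ⟨K', hK'c, hK'conn, hyK', hzK', hdiam⟩ := hT _ _ hd
  obtain ⟨hKc, hKconn⟩ := continuum_smul q g⁻¹ hK'c hK'conn
  refine ⟨_, hKc, hKconn, ⟨g • y, hyK', inv_smul_smul g y⟩, ⟨g • z, hzK', inv_smul_smul g z⟩, ?_⟩
  rw [Set.disjoint_left]
  rintro _ ⟨w, hw, rfl⟩ hwb
  rw [mem_closedBall] at hwb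
  simp only at hwb
  have hwy : dist w (g • y) < ε := (dist_le_diam_of_mem hK'c.isBounded hw hyK').trans_lt hdiam
  have hmw : m' w ≤ 2 * C ^ 2 * a + ε := by
    simp only [hm'] at hy' ⊢
    have h1 : s ≤ 2 * C ^ 2 * a := (le_max_left _ _).trans hy'
    have h2 : dist (g • y) (q.ζ g⁻¹) ≤ 2 * C ^ 2 * a := (le_max_right _ _).trans hy'
    refine max_le (by linarith) ?_
    have := dist_triangle w (g • y) (q.ζ g⁻¹)
    linarith
  have hκ : 2 * C ^ 2 * a + ε ≤ 1 / (C ^ 2 * (C + 1)) := by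
    have h1 : 2 * C ^ 2 * a ≤ 2 * C ^ 2 * (1 / (4 * C ^ 4 * (C + 1))) := by gcongr
    have h2 : 2 * C ^ 2 * (1 / (4 * C ^ 4 * (C + 1))) = 1 / (2 * C ^ 2 * (C + 1)) := by
      field_simp; norm_num
    have h3 : 1 / (C ^ 2 * (C + 1)) = 1 / (2 * C ^ 2 * (C + 1)) + 1 / (2 * C ^ 2 * (C + 1)) := by
      field_simp; norm_num
    rw [h3, hε]
    linarith
  have h1 := q.q2_lower g⁻¹ w
  rw [q.s_inv, inv_inv, ← hCdef, ← hs] at h1
  set M := max s (dist (g⁻¹ • w) (q.ζ g)) with hM
  have hM0 : 0 ≤ M := le_max_of_le_left hs0.le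
  have h2 : s ≤ C * (M * (1 / (C ^ 2 * (C + 1)))) := by
    refine h1.trans ?_
    have : m' w ≤ 1 / (C ^ 2 * (C + 1)) := hmw.trans hκ
    simp only [hm'] at this
    gcongr
  have h3 : C * (C + 1) * s ≤ M := by
    have e : C * (M * (1 / (C ^ 2 * (C + 1)))) = M / (C * (C + 1)) := by field_simp
    rw [e, le_div_iff₀ (by positivity)] at h2
    linarith
  have h4 : s < C * (C + 1) * s := by nlinarith
  have h5 : M = dist (g⁻¹ • w) (q.ζ g) := by
    rw [hM]
    rcases le_total s (dist (g⁻¹ • w) (q.ζ g)) with h | h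
    · exact max_eq_right h
    · exfalso
      rw [hM, max_eq_left h] at h3
      linarith
  have h6 := dist_triangle (g⁻¹ • w) x (q.ζ g)
  have h7 : r / (2 / a) = a * r / 2 := by field_simp
  rw [h7] at hwb
  have h8 : (C + 1) * (a * r) ≤ C * (C + 1) * s := by
    calc (C + 1) * (a * r) ≤ (C + 1) * (C * s) := by gcongr
      _ = _ := by ring
  have h9 : (C + 1) * (a * r) = C * (a * r) + a * r := by ring
  have h10 : 0 < a * r := by positivity
  linarith

end P198L
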